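import Vale.Agent.P032.Words.H151.K6Prism
import Vale.Agent.P032.Words.H151.K6K33m
import Vale.Agent.P032.Words.H151.K6K42
import Vale.Agent.P032.Words.H151.K6D22
import Vale.Agent.P032.Words.H151.K6D1

/-!
# Graphs on six colours

Every graph on six colours such that no vertex is joined to all but one of the other vertices is, after
a relabelling of the colours, contained in one of the five graphs of the tables, or it contains all nine
edges between two triples of colours.  The sets of graphs are big natural numbers as in `Bits`.
-/

namespace Vale.Agent.P032.Words6.H704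

open Vale.Agent.P032.Words.Bits

/-- the fifteen pairs of colours -/
def pp : List (ℕ × ℕ) := [(0, 1), (0, 2), (0, 3), (0, 4), (0, 5), (1, 2), (1, 3), (1, 4), (1, 5), (2, 3), (2, 4), (2, 5), (3, 4), (3, 5), (4, 5)]

/-- value of a relabelling, given by its digits in base eight -/
def dg (c i : ℕ) : ℕ := (c >>> (3 * i)) &&& 7

/-- membership -/
def memb : List ℕ → ℕ → Bool
  | [], _ => false
  | a :: l, x => Nat.beq a x || memb l x

/-- the graphs which become subgraphs of `L` -/
def cA (L : List ℕ) (c j b : ℕ) : Bool :=
  Nat.beq b 0 || memb L (2 ^ dg c (pp.getD j (0, 0)).1 ||| 2 ^ dg c (pp.getD j (0, 0)).2)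

/-- `v` is joined to everything except possibly `u` -/
def badA (v u j b : ℕ) : Bool :=
  Nat.beq b 1 || !((Nat.beq (pp.getD j (0, 0)).1 v && !(Nat.beq (pp.getD j (0, 0)).2 u)) ||
    (Nat.beq (pp.getD j (0, 0)).2 v && !(Nat.beq (pp.getD j (0, 0)).1 u)))

/-- all pairs between the set `A` of colours and its complement are edges -/
def sepA (A j b : ℕ) : Bool :=
  Nat.beq b 1 || (Nat.beq ((A >>> (pp.getD j (0, 0)).1) &&& 1) ((A >>> (pp.getD j (0, 0)).2) &&& 1))

/-- union of sets of graphs -/
def un : List (ℕ → ℕ → Bool) → ℕ
  | [] => 0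
  | A :: l => cyl 2 A 15 ||| un l

theorem un_testBit {n : ℕ} : ∀ {l : List (ℕ → ℕ → Bool)}, (un l).testBit n = true →
    ∃ A ∈ l, (cyl 2 A 15).testBit n = true
  | [], h => by
    have h' : (0 : ℕ).testBit n = true := h
    rw [Nat.zero_testBit] at h'
    exact absurd h' (by simp)
  | A :: l, h => by
    have h' : (cyl 2 A 15 ||| un l).testBit n = true := h
    rw [Nat.testBit_or, Bool.or_eq_true] at h'
    rcases h' with h1 | h1
    · exact ⟨A, List.mem_cons_self, h1⟩
    · obtain ⟨A', hA, h2⟩ := un_testBit h1
      exact ⟨A', List.mem_cons_of_mem _ hA, h2⟩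

/-- pairs of different colours -/
def vu : List (ℕ × ℕ) := [(0, 1), (0, 2), (0, 3), (0, 4), (0, 5),
  (1, 0), (1, 2), (1, 3), (1, 4), (1, 5),
  (2, 0), (2, 1), (2, 3), (2, 4), (2, 5),
  (3, 0), (3, 1), (3, 2), (3, 4), (3, 5),
  (4, 0), (4, 1), (4, 2), (4, 3), (4, 5),
  (5, 0), (5, 1), (5, 2), (5, 3), (5, 4)]

/-- triples of colours -/
def tri : List ℕ := [7, 11, 19, 35, 13, 21, 37, 25, 41, 49]

/-- relabellings -/
def prismC : List ℕ := [181896, 153224, 178312, 120968, 146056, 117384, 181448, 152776, 174280,
  88264, 142024, 84680, 177416, 120072, 173832, 87816, 109320, 80648, 144712, 116040, 141128,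
  83784, 108872, 80200, 181336, 152664, 174168, 88152, 141912, 84568, 172824, 86808, 169240,
  54552, 72472, 43800, 177248, 119904, 173664, 87648, 109152, 80480, 176800, 119456, 169632,
  54944, 105120, 47776, 172768, 86752, 169184, 54496, 72416, 43744, 107360, 78688, 103776, 46432,
  71520, 42848]

/-- relabellings -/
def k33mC : List ℕ := [181896, 153224, 146056, 181448, 152776, 174280, 88264, 142024, 84680,
  144712, 141128, 83784, 181840, 153168, 146000, 180944, 152272, 170192, 55504, 137936, 51920,
  144208, 137040, 51024, 181336, 152664, 174168, 88152, 141912, 84568, 180888, 152216, 170136,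
  55448, 137880, 51864, 172824, 86808, 169240, 54552, 72472, 43800, 140120, 82776, 136536, 50520,
  72024, 43352, 144488, 140904, 83560, 144040, 136872, 50856, 140008, 82664, 136424, 50408,
  71912, 43240, 181826, 153154, 145986, 180930, 152258, 170178, 55490, 137922, 51906, 144194,
  137026, 51010, 180762, 152090, 170010, 55322, 137754, 51738, 168218, 53530, 35610, 135514,
  49498, 35162, 143914, 136746, 50730, 135402, 49386, 35050]

/-- relabellings -/
def k42C : List ℕ := [181896, 153224, 146056, 144712, 144488, 181889, 153217, 146049, 144705,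
  181777, 153105, 145937, 180433, 151761, 166097]

/-- relabellings -/
def d22C : List ℕ := [181896, 153224, 146056, 181448, 152776, 174280, 88264, 142024, 84680,
  144712, 141128, 83784, 181840, 153168, 146000, 180944, 152272, 170192, 55504, 137936, 51920,
  144208, 137040, 51024, 181336, 152664, 174168, 88152, 141912, 84568, 180888, 152216, 170136,
  55448, 137880, 51864, 172824, 86808, 169240, 54552, 72472, 43800, 140120, 82776, 136536, 50520,
  72024, 43352, 144488, 140904, 83560, 144040, 136872, 50856, 140008, 82664, 136424, 50408,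
  71912, 43240, 181889, 153217, 146049, 181441, 152769, 174273, 88257, 142017, 84673, 144705,
  141121, 83777, 181777, 153105, 145937, 180433, 151761, 166097, 22737, 133841, 19153, 143697,
  132945, 18257, 181273, 152601, 174105, 88089, 141849, 84505, 180377, 151705, 166041, 22681,
  133785, 19097, 172313, 86297, 165145, 21785, 68377, 11033, 139609, 82265, 132441, 17753, 67929,
  10585, 144425, 140841, 83497, 143529, 132777, 18089, 139497, 82153, 132329, 17641, 67817,
  10473, 181315, 152643, 174147, 88131, 141891, 84547, 180867, 152195, 170115, 55427, 137859,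
  51843, 172803, 86787, 169219, 54531, 72451, 43779, 140099, 82755, 136515, 50499, 72003, 43331,
  181259, 152587, 174091, 88075, 141835, 84491, 180363, 151691, 166027, 22667, 133771, 19083,
  172299, 86283, 165131, 21771, 68363, 11019, 139595, 82251, 132427, 17739, 67915, 10571, 172579,
  86563, 168995, 54307, 72227, 43555, 172131, 86115, 164963, 21603, 68195, 10851]

/-- relabellings -/
def d1C : List ℕ := [181896, 153224, 146056, 181448, 152776, 174280, 88264, 142024, 84680,
  144712, 141128, 83784, 181336, 152664, 174168, 88152, 141912, 84568, 172824, 86808, 72472,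
  140120, 82776, 72024, 144488, 140904, 83560, 140008, 82664, 71912, 181889, 153217, 146049,
  181441, 152769, 174273, 88257, 142017, 84673, 144705, 141121, 83777, 181777, 153105, 145937,
  180433, 151761, 166097, 22737, 133841, 19153, 143697, 132945, 18257, 181273, 152601, 174105,
  88089, 141849, 84505, 180377, 151705, 166041, 22681, 133785, 19097, 172313, 86297, 165145,
  21785, 68377, 11033, 139609, 82265, 132441, 17753, 67929, 10585, 144425, 140841, 83497, 143529,
  132777, 18089, 139497, 82153, 132329, 17641, 67817, 10473, 181315, 152643, 174147, 88131,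
  141891, 84547, 172803, 86787, 72451, 140099, 82755, 72003, 181259, 152587, 174091, 88075,
  141835, 84491, 180363, 151691, 166027, 22667, 133771, 19083, 172299, 86283, 165131, 21771,
  68363, 11019, 139595, 82251, 132427, 17739, 67915, 10571, 172579, 86563, 72227, 172131, 86115,
  164963, 21603, 68195, 10851, 69987, 66403, 9059, 139819, 82475, 71723, 139371, 82027, 132203,
  17515, 67691, 10347, 69931, 66347, 9003, 144453, 140869, 83525, 139973, 82629, 71877, 144397,
  140813, 83469, 143501, 132749, 18061, 139469, 82125, 132301, 17613, 67789, 10445, 139805,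
  82461, 71709, 139357, 82013, 132189, 17501, 67677, 10333, 69917, 66333, 8989]

/-- the check -/
def chkCov : Bool := Nat.beq
  (un (vu.map fun c => badA c.1 c.2) ||| un (tri.map sepA) ||| un (prismC.map (cA Prism.L)) |||
    un (k33mC.map (cA K33m.L)) ||| un (k42C.map (cA K42.L)) ||| un (d22C.map (cA D22.L)) |||
    un (d1C.map (cA D1.L)))
  (cyl 2 (fun _ _ => true) 15)

theorem chkCov_eq : chkCov = true := by decide +kernel

/-- relabellings are injective -/
def chkInj (l : List ℕ) : Bool := l.all fun c => [0, 1, 2, 3, 4, 5].all fun i =>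
  Nat.blt (dg c i) 6 && [0, 1, 2, 3, 4, 5].all fun j => Nat.beq i j || !(Nat.beq (dg c i) (dg c j))

theorem inj_all : (chkInj prismC && chkInj k33mC && chkInj k42C && chkInj d22C && chkInj d1C) = true := by
  decide +kernel

end Vale.Agent.P032.Words6.H704
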