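import Mathlib

/-!
# P032: words of broken pairs which satisfy the chord rule exist at every generic time

The finite part: for each of the graphs of `dats` (letters as masks, with all splittings of their
complements), and two antipodal palettes `t`, `t2` with at most four colours together, there are letters
`P` below `t` and `Q` below `t2` which satisfy the chord rule.
-/



noncomputable section

namespace Vale.Agent.P032.Words6.H704



/-! ### Masks -/

/-- number of colours -/
def pcn (n : ℕ) : ℕ := (n.testBit 0).toNat + (n.testBit 1).toNat + (n.testBit 2).toNat +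
  (n.testBit 3).toNat + (n.testBit 4).toNat + (n.testBit 5).toNat

/-- membership in a list of numbers -/
def mb (l : List ℕ) (x : ℕ) : Bool := l.any fun a => Nat.beq a x

/-- `X` is one side of a splitting of the complement of `P` -/
def spl (L : List ℕ) (P X : ℕ) : Bool :=
  Nat.beq (X &&& P) 0 && !(Nat.beq X 0) && !(Nat.beq (X ||| P) 63) &&
    (List.range 6).all fun x => (List.range 6).all fun y =>
      !(X.testBit x && !((X ||| P).testBit y)) || mb L (2 ^ x ||| 2 ^ y)

/-- `l` and `m` are on different sides of all splittings -/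
def spb (x : ℕ × List ℕ) (l m : ℕ) : Bool :=
  x.2.all fun X => (X.testBit l && !((X ||| x.1).testBit m)) ||
    (!((X ||| x.1).testBit l) && X.testBit m)

/-- the chord rule -/
def chb (x y : ℕ × List ℕ) : Bool :=
  (List.range 6).any fun l => (List.range 6).any fun m =>
    !((x.1 ||| y.1).testBit l) && !((x.1 ||| y.1).testBit m) && spb x l m && spb y l m

/-- `p` is below `t` -/
def sbm (p t : ℕ) : Bool := Nat.beq (p &&& t) p

/-- condition of a palette with one letter -/
def onl (D : List (ℕ × List ℕ)) (t l m : ℕ) : Bool :=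
  D.any (fun x => sbm x.1 t && (D.all fun y => !(sbm y.1 t) || Nat.beq y.1 x.1) && !(spb x l m))

/-- the data are correct -/
def okD (D : List (ℕ × List ℕ)) : Bool :=
  (D.all fun x => Nat.beq (pcn x.1) 2 && Nat.blt x.1 64 && x.2.all fun X => Nat.blt X 64) &&
  D.all fun x => (List.range 64).all fun X => (spl (D.map Prod.fst) x.1 X == mb x.2 X)

/-- **Fact II** for one graph -/
def f2D (D : List (ℕ × List ℕ)) (W : List ℕ) : Bool :=
  W.all fun t => !(D.any fun x => sbm x.1 t) || W.all fun t2 =>
    !(D.any fun x => sbm x.1 t2) || Nat.blt 4 (pcn (t ||| t2)) ||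
    (D.any fun x => sbm x.1 t && D.any fun y => sbm y.1 t2 && chb x y) ||
    (List.range 6).all fun l => (List.range 6).all fun m =>
      (t ||| t2).testBit l || (t ||| t2).testBit m || onl D t l m || onl D t2 l m

/-- a letter which never satisfies the chord rule -/
def dead (D : List (ℕ × List ℕ)) : Bool :=
  D.any fun x => (List.range 6).all fun l => (List.range 6).all fun m => !(spb x l m)

/-- masks with two or three colours -/
def pals : List ℕ := [3, 5, 6, 7, 9, 10, 11, 12, 13, 14, 17, 18, 19, 20, 21, 22, 24, 25, 26, 28,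
  33, 34, 35, 36, 37, 38, 40, 41, 42, 44, 48, 49, 50, 52, 56]
/-- the graphs: letters with their splittings -/
def dats : List (List (ℕ × List ℕ)) := [[(3, []), (12, []), (48, [])],
  [(3, []), (5, []), (9, []), (48, [1, 14])], [(3, []), (5, []), (10, []), (48, [])],
  [(3, []), (5, []), (24, []), (40, [])], [(3, []), (5, []), (9, []), (6, []), (48, [1, 14])],
  [(3, []), (5, []), (9, []), (18, []), (34, [])],
  [(3, []), (5, []), (9, []), (18, []), (36, [])],
  [(3, []), (5, []), (9, []), (18, []), (48, [1, 14])],
  [(3, []), (5, []), (6, []), (24, []), (40, [])],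
  [(3, []), (5, []), (10, []), (12, []), (48, [6, 9])],
  [(3, []), (5, []), (10, []), (20, []), (40, [])],
  [(3, []), (5, []), (9, []), (6, []), (10, []), (48, [1, 2, 3, 12, 13, 14])],
  [(3, []), (5, []), (9, []), (6, []), (18, []), (36, [])],
  [(3, []), (5, []), (9, []), (6, []), (18, []), (40, [2, 21])],
  [(3, []), (5, []), (9, []), (6, [8, 49]), (24, []), (40, [])],
  [(3, []), (5, []), (9, []), (6, []), (24, []), (48, [1, 14])],
  [(3, []), (5, []), (9, []), (18, []), (34, []), (20, [])],
  [(3, []), (5, []), (9, []), (18, []), (20, []), (40, [6, 17])],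
  [(3, []), (5, []), (9, [16, 38]), (18, []), (20, []), (48, [1, 14])],
  [(3, []), (5, []), (9, []), (18, []), (36, []), (48, [1, 14])],
  [(3, []), (5, []), (6, []), (24, []), (40, []), (48, [])],
  [(3, []), (5, []), (10, []), (20, []), (40, []), (48, [])],
  [(3, []), (5, []), (9, []), (6, []), (10, []), (12, []), (48, [1, 2, 3, 4, 5, 6, 7, 8, 9, 10, 11, 12, 13, 14])],
  [(3, []), (5, []), (9, []), (6, []), (10, []), (20, [8, 35]), (40, [4, 19])],
  [(3, []), (5, []), (9, []), (6, []), (10, []), (20, []), (48, [1, 2, 3, 12, 13, 14])],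
  [(3, []), (5, []), (9, []), (6, []), (18, []), (36, [10, 17]), (24, [4, 35])],
  [(3, []), (5, []), (9, []), (6, [8, 49]), (18, []), (24, []), (40, [2, 21])],
  [(3, []), (5, []), (9, []), (6, []), (18, []), (40, [2, 21]), (48, [1, 14])],
  [(3, []), (5, []), (9, []), (6, [8, 49]), (24, []), (40, []), (48, [1, 14])],
  [(3, []), (5, []), (9, []), (18, []), (34, []), (20, [10, 33]), (40, [6, 17])],
  [(3, []), (5, []), (9, [16, 38]), (18, []), (20, []), (40, [6, 17]), (48, [1, 14])],
  [(3, []), (5, []), (9, []), (6, []), (10, []), (20, [8, 35]), (40, [4, 19]), (48, [1, 2, 3, 12, 13, 14])],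
  [(3, []), (5, []), (9, []), (6, [8, 49]), (18, [12, 33]), (36, [10, 17]), (24, [4, 35]), (40, [2, 21])],
  [(3, []), (5, [16, 42]), (9, []), (6, [8, 49]), (18, []), (24, []), (40, [2, 21]), (48, [1, 14])],
  [(3, [28, 32]), (5, [16, 42]), (9, [20, 34]), (6, [8, 49]), (18, [12, 33]), (36, [10, 17]), (24, [4, 35]), (40, [2, 21]), (48, [1, 14])]]

theorem dats_ok : (dats.all okD) = true := by decide +kernel

theorem dats_f2 : (dats.all fun D => dead D || f2D D pals) = true := by decide +kernel

theorem pals_ok : ∀ t < 64, pcn t = 2 ∨ pcn t = 3 → t ∈ pals := by decide +kernel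

end Vale.Agent.P032.Words6.H704
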